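import Mathlib

/-!
# P013 — Jacobsthal's function on integers whose prime divisors have small reciprocal sum

If the primes dividing `n` satisfy `∑ 1/p ≤ 1 - δ`, then every run of `L` consecutive integers
with `ω(n) < δ L` contains an integer coprime to `n`, i.e. `j(n) ≤ ⌊ω(n)/δ⌋ + 1`.
In particular `j(n) ≤ ω(n)^2 + 1` whenever `∑_{p ∣ n} 1/p ≤ 1 - 1/ω(n)`.

Proof: among `L` consecutive integers at most `L/p + 1` are divisible by `p`; sum over `p ∣ n`.
-/

namespace Vale.Agent.Results.P013.A_ReciprocalSumClass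

/-- Natural-number form of the counting argument. -/
private lemma core (n : ℕ) (hn : 0 < n) (δ : ℝ)
    (hS : ∑ p ∈ n.primeFactors, (1 / (p : ℝ)) ≤ 1 - δ) (a L : ℕ)
    (hL : (n.primeFactors.card : ℝ) < δ * L) :
    ∃ i, i < L ∧ Nat.Coprime (a + i) n := by
  by_contra hcon
  have hcon' : ∀ i, i < L → ¬ Nat.Coprime (a + i) n := fun i hi hc => hcon ⟨i, hi, hc⟩
  have hsub : Finset.range L ⊆
      n.primeFactors.biUnion (fun p => (Finset.range L).filter (fun i => p ∣ a + i)) := by
    intro i hi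
    obtain ⟨p, hp, hpa, hpn⟩ :=
      Nat.Prime.not_coprime_iff_dvd.mp (hcon' i (Finset.mem_range.mp hi))
    exact Finset.mem_biUnion.mpr
      ⟨p, Nat.mem_primeFactors.mpr ⟨hp, hpn, hn.ne'⟩, Finset.mem_filter.mpr ⟨hi, hpa⟩⟩
  have hbad : ∀ p ∈ n.primeFactors,
      (((Finset.range L).filter (fun i => p ∣ a + i)).card : ℝ) ≤ (L : ℝ) / p + 1 := by
    intro p hp
    have hcard : ((Finset.range L).filter (fun i => p ∣ a + i)).card ≤ L / p + 1 := by
      have h0 : ((Finset.range L).filter (fun i => p ∣ a + i)).card ≤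
          (Finset.range (L / p + 1)).card := by
        apply Finset.card_le_card_of_injOn (fun i => i / p)
        · intro i hi
          have hi' := Finset.mem_range.mp (Finset.mem_filter.mp hi).1
          exact Finset.mem_range.mpr (Nat.lt_succ_of_le (Nat.div_le_div_right hi'.le))
        · intro i hi j hj hij
          have hpi : p ∣ a + i := (Finset.mem_filter.mp hi).2
          have hpj : p ∣ a + j := (Finset.mem_filter.mp hj).2
          have hij' : i / p = j / p := hij
          have hmod : i % p = j % p := by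
            have h3 : (a + i) ≡ (a + j) [MOD p] := by
              rw [Nat.ModEq, Nat.mod_eq_zero_of_dvd hpi, Nat.mod_eq_zero_of_dvd hpj]
            exact Nat.ModEq.add_left_cancel' a h3
          calc i = p * (i / p) + i % p := (Nat.div_add_mod i p).symm
            _ = p * (j / p) + j % p := by rw [hij', hmod]
            _ = j := Nat.div_add_mod j p
      simpa using h0
    calc (((Finset.range L).filter (fun i => p ∣ a + i)).card : ℝ)
        ≤ ((L / p + 1 : ℕ) : ℝ) := by exact_mod_cast hcard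
      _ ≤ (L : ℝ) / p + 1 := by
          push_cast
          have := Nat.cast_div_le (α := ℝ) (m := L) (n := p)
          linarith
  have h1 : (L : ℝ) ≤ ∑ p ∈ n.primeFactors, ((L : ℝ) / p + 1) := by
    calc (L : ℝ) = ((Finset.range L).card : ℝ) := by simp
      _ ≤ ((n.primeFactors.biUnion
            (fun p => (Finset.range L).filter (fun i => p ∣ a + i))).card : ℝ) := by
          exact_mod_cast Finset.card_le_card hsub
      _ ≤ ∑ p ∈ n.primeFactors,
            (((Finset.range L).filter (fun i => p ∣ a + i)).card : ℝ) := by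
          exact_mod_cast Finset.card_biUnion_le
      _ ≤ ∑ p ∈ n.primeFactors, ((L : ℝ) / p + 1) := Finset.sum_le_sum hbad
  have h2 : ∑ p ∈ n.primeFactors, ((L : ℝ) / p + 1) =
      L * ∑ p ∈ n.primeFactors, (1 / (p : ℝ)) + n.primeFactors.card := by
    rw [Finset.sum_add_distrib, Finset.mul_sum]
    simp [div_eq_mul_inv]
  have h3 : (L : ℝ) * ∑ p ∈ n.primeFactors, (1 / (p : ℝ)) ≤ L * (1 - δ) :=
    mul_le_mul_of_nonneg_left hS (Nat.cast_nonneg L)
  nlinarith

/-- Integer form: runs of consecutive integers with an arbitrary integer starting point. -/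
private lemma coreInt (n : ℕ) (hn : 0 < n) (δ : ℝ)
    (hS : ∑ p ∈ n.primeFactors, (1 / (p : ℝ)) ≤ 1 - δ) (a : ℤ) (L : ℕ)
    (hL : (n.primeFactors.card : ℝ) < δ * L) :
    ∃ i : ℕ, i < L ∧ IsCoprime (a + i) (n : ℤ) := by
  obtain ⟨i, hi, hc⟩ := core n hn δ hS (a % n).toNat L hL
  refine ⟨i, hi, ?_⟩
  have hnn : (0 : ℤ) ≤ a % n := Int.emod_nonneg a (by exact_mod_cast hn.ne')
  have ha : a = ((a % n).toNat : ℤ) + n * (a / n) := by
    rw [Int.toNat_of_nonneg hnn]
    exact (Int.emod_add_mul_ediv a n).symm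
  have hco : IsCoprime ((((a % n).toNat + i : ℕ)) : ℤ) (n : ℤ) :=
    Nat.isCoprime_iff_coprime.mpr hc
  have e : a + i = (((a % n).toNat + i : ℕ) : ℤ) + (n : ℤ) * (a / n) := by
    push_cast
    linarith
  rw [e]
  exact (IsCoprime.add_mul_left_left_iff).mpr hco

/-- **Result.** `j(n)` is the least `m` such that every `m` consecutive integers contain one
coprime to `n`; `ω(n) = n.primeFactors.card`.

1. If `n ≥ 1` and `∑_{p ∣ n, p prime} 1/p ≤ 1 - δ`, then every run `a, a+1, …, a+L-1` of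
   consecutive integers with `ω(n) < δ L` contains an integer coprime to `n`.
2. If `n ≥ 1`, `ω(n) = k ≥ 1` and `∑_{p ∣ n} 1/p ≤ 1 - 1/k`, then every run of `k^2 + 1`
   consecutive integers contains an integer coprime to `n`, i.e. `j(n) ≤ ω(n)^2 + 1`. -/
theorem result :
    (∀ (n : ℕ) (δ : ℝ), 0 < n → ∑ p ∈ n.primeFactors, (1 / (p : ℝ)) ≤ 1 - δ →
      ∀ (a : ℤ) (L : ℕ), (n.primeFactors.card : ℝ) < δ * L →
        ∃ i : ℕ, i < L ∧ IsCoprime (a + i) (n : ℤ)) ∧
    (∀ (n k : ℕ), 0 < n → 1 ≤ k → n.primeFactors.card = k →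
      ∑ p ∈ n.primeFactors, (1 / (p : ℝ)) ≤ 1 - 1 / (k : ℝ) →
      ∀ a : ℤ, ∃ i : ℕ, i < k ^ 2 + 1 ∧ IsCoprime (a + i) (n : ℤ)) := by
  refine ⟨fun n δ hn hS a L hL => coreInt n hn δ hS a L hL, ?_⟩
  intro n k hn hk hcard hS a
  apply coreInt n hn (1 / (k : ℝ)) hS a (k ^ 2 + 1)
  rw [hcard]
  have hk' : (0 : ℝ) < k := by exact_mod_cast hk
  push_cast
  field_simp
  nlinarith

end Vale.Agent.Results.P013.A_ReciprocalSumClass
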